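import Vale.Agent.P083W.Main
import Mathlib.SetTheory.Cardinal.Arithmetic

/-!
# P083: amplification of operators
-/

set_option linter.unusedSectionVars false

open scoped InnerProductSpace

noncomputable section

namespace Vale.Agent.N083

open Vale.Agent.P083N Vale.Agent.P083W

variable {J ι K H : Type} [NormedAddCommGroup K] [InnerProductSpace ℂ K] [CompleteSpace K]
  [NormedAddCommGroup H] [InnerProductSpace ℂ H] [CompleteSpace H]

theorem exists_equiv [Infinite J] [Nonempty ι] (h : Cardinal.mk ι ≤ Cardinal.mk J) :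
    Nonempty (J ≃ J × ι) := by
  rw [← Cardinal.eq, Cardinal.mk_prod, Cardinal.lift_id, Cardinal.lift_id,
    Cardinal.mul_eq_left (Cardinal.aleph0_le_mk J) h (Cardinal.mk_ne_zero ι)]

theorem exists_iso [Infinite J] [Nonempty ι] (b : HilbertBasis ι ℂ K)
    (h : Cardinal.mk ι ≤ Cardinal.mk J) : Nonempty (L2 J K ≃ₗᵢ[ℂ] L2 J ℂ) := by
  classical
  obtain ⟨e⟩ := exists_equiv h
  let v : J → L2 J K := fun j => opSg (e j).1 (b (e j).2)
  have hv : Orthonormal ℂ v := by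
    rw [orthonormal_iff_ite]
    intro i j
    simp only [v, inner_opSg, orthonormal_iff_ite.1 b.orthonormal, ← ite_and, ← Prod.ext_iff,
      e.apply_eq_iff_eq]
  have hs : (Submodule.span ℂ (Set.range v))ᗮ = ⊥ := by
    rw [Submodule.eq_bot_iff]
    intro f hf
    refine lp.ext (funext fun j => b.repr.injective (lp.ext (funext fun i => ?_)))
    have := Submodule.inner_right_of_mem_orthogonal
      (Submodule.subset_span (Set.mem_range_self (e.symm (j, i)))) hf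
    simp only [v, inner_opSg_left, e.apply_symm_apply] at this
    rw [b.repr_apply_apply, this, b.repr_apply_apply]
    exact (inner_zero_right _).symm
  exact ⟨(HilbertBasis.mkOfOrthogonalEqBot hv hs).repr⟩

/-- `T ↦ W (1 ⊗ T) W*` -/
def amp (W : L2 J K ≃ₗᵢ[ℂ] H) : (K →L[ℂ] K) →⋆ₐ[ℂ] (H →L[ℂ] H) :=
  (W.conjStarAlgEquiv : (L2 J K →L[ℂ] L2 J K) →⋆ₐ[ℂ] (H →L[ℂ] H)).comp (diag J K)

theorem amp_apply (W : L2 J K ≃ₗᵢ[ℂ] H) (T : K →L[ℂ] K) :
    amp W T = W.conjStarAlgEquiv (diag J K T) := rfl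

theorem amp_injective [Nonempty J] (W : L2 J K ≃ₗᵢ[ℂ] H) : Function.Injective (amp W) := by
  classical
  intro S T h
  have k : diag J K S = diag J K T := W.conjStarAlgEquiv.injective h
  obtain ⟨j⟩ := ‹Nonempty J›
  ext ξ
  have := congrArg (fun R : L2 J K →L[ℂ] L2 J K => R (opSg j ξ) j) k
  simpa only [diag_apply, opSg_self] using this

/-- `a ↦ a ⊗ ξ` -/
def col (J : Type) (ξ : K) : L2 J ℂ →L[ℂ] L2 J K :=
  lp.mapCLM 2 (fun _ : J => ContinuousLinearMap.toSpanSingleton ℂ ξ) (norm_nonneg ξ)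
    fun _ => (ContinuousLinearMap.norm_toSpanSingleton ξ).le

theorem col_apply (ξ : K) (a : L2 J ℂ) (j : J) : col J ξ a j = a j • ξ := rfl

theorem inner_col (ξ : K) (a a' : L2 J ℂ) :
    ⟪col J ξ a, col J ξ a'⟫_ℂ = ((‖ξ‖ ^ 2 : ℝ) : ℂ) * ⟪a, a'⟫_ℂ := by
  rw [lp.inner_eq_tsum, lp.inner_eq_tsum, ← tsum_mul_left]
  refine tsum_congr fun j => ?_
  rw [col_apply, col_apply, inner_smul_left, inner_smul_right, inner_self_eq_norm_sq_to_K]
  simp only [RCLike.inner_apply, Complex.coe_algebraMap]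
  push_cast
  ring

theorem star_col (W : L2 J K ≃ₗᵢ[ℂ] L2 J ℂ) (ξ : K) :
    star ((W : L2 J K →L[ℂ] L2 J ℂ).comp (col J ξ)) * (W : L2 J K →L[ℂ] L2 J ℂ).comp (col J ξ) =
      ((‖ξ‖ ^ 2 : ℝ) : ℂ) • 1 := by
  refine ContinuousLinearMap.ext fun a => ext_inner_left ℂ fun a' => ?_
  rw [mul_apply_eq_comp, ContinuousLinearMap.star_eq_adjoint,
    ContinuousLinearMap.adjoint_inner_right, smul_apply, inner_smul_right]
  exact (W.inner_map_map _ _).trans (inner_col ξ a' a)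

theorem norm_col (W : L2 J K ≃ₗᵢ[ℂ] L2 J ℂ) (ξ : K) :
    ‖(W : L2 J K →L[ℂ] L2 J ℂ).comp (col J ξ)‖ ≤ ‖ξ‖ := by
  have h := CStarRing.norm_star_mul_self (x := (W : L2 J K →L[ℂ] L2 J ℂ).comp (col J ξ))
  rw [star_col, norm_smul, Complex.norm_real, Real.norm_of_nonneg (sq_nonneg _)] at h
  have := mul_le_mul_of_nonneg_left (ContinuousLinearMap.norm_id_le (𝕜 := ℂ) (E := L2 J ℂ))
    (sq_nonneg ‖ξ‖)
  refine abs_le_of_sq_le_sq' ?_ (norm_nonneg _) |>.2
  rw [sq (‖_‖), ← h]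
  exact this.trans_eq (mul_one _)

theorem amp_full (W : L2 J K ≃ₗᵢ[ℂ] L2 J ℂ) (T : K →L[ℂ] K) (hT : T ≠ 0) :
    ∃ x y, x * amp W T * y = 1 ∧ ‖x‖ * ‖y‖ * ‖T‖ ≤ 2 := by
  have T0 : 0 < ‖T‖ := norm_pos_iff.2 hT
  obtain ⟨ξ, h1, h2⟩ := T.exists_lt_apply_of_lt_opNorm (half_lt_self T0)
  have η0 : 0 < ‖T ξ‖ := (half_pos T0).trans h2
  have e : amp W T * (W : L2 J K →L[ℂ] L2 J ℂ).comp (col J ξ) =
      (W : L2 J K →L[ℂ] L2 J ℂ).comp (col J (T ξ)) := by
    refine ContinuousLinearMap.ext fun a => ?_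
    show W (diag J K T (W.symm (W (col J ξ a)))) = W (col J (T ξ) a)
    rw [W.symm_apply_apply]
    congr 1
    exact lp.ext (funext fun j => by rw [diag_apply, col_apply, col_apply, map_smul])
  refine ⟨(((‖T ξ‖ ^ 2)⁻¹ : ℝ) : ℂ) • star ((W : L2 J K →L[ℂ] L2 J ℂ).comp (col J (T ξ))),
    (W : L2 J K →L[ℂ] L2 J ℂ).comp (col J ξ), ?_, ?_⟩
  · rw [mul_assoc, e, smul_mul_assoc, star_col, smul_smul, ← Complex.ofReal_mul,
      inv_mul_cancel₀ (by positivity), Complex.ofReal_one, one_smul]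
  · rw [norm_smul, norm_star, Complex.norm_real, Real.norm_of_nonneg (by positivity)]
    calc _ ≤ (‖T ξ‖ ^ 2)⁻¹ * ‖T ξ‖ * 1 * (2 * ‖T ξ‖) := by
          gcongr
          · exact norm_col W _
          · exact (norm_col W _).trans h1.le
          · linarith
      _ = 2 := by field_simp

/-- monomial data of an injection -/
def mon (f : J → J) (hf : Function.Injective f) : Mon J 1 := ⟨f, hf, fun _ => 0⟩

theorem exists_pair [Infinite J] : ∃ c₁ c₂ : L2 J K →L[ℂ] L2 J K, CuntzRel c₁ c₂ ∧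
    ∀ T, Commute (diag J K T) c₁ ∧ Commute (diag J K T) c₂ := by
  obtain ⟨e⟩ := exists_equiv (J := J) (ι := Bool)
    ((Cardinal.lt_aleph0_of_finite Bool).le.trans (Cardinal.aleph0_le_mk J))
  let m : Bool → Mon J 1 := fun b => mon (fun j => e.symm (j, b)) fun i j h =>
    congrArg Prod.fst (e.symm.injective h)
  have k1 : ∀ (b : Bool) (f : L2 J K) (j : J),
      op K 1 (m b) (star (op K 1 (m b)) f) (e.symm (j, b)) = f (e.symm (j, b)) := fun b f j =>
    (op_apply_map 1 (m b) _ j).trans (by rw [star_op_apply, circle_smul_neg]; rfl)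
  have k2 : ∀ (b b' : Bool) (f : L2 J K) (j : J), b ≠ b' →
      op K 1 (m b) f (e.symm (j, b')) = 0 := fun b b' f j h =>
    op_apply_of_notMem _ _ _ _ fun ⟨i, hi⟩ => h (congrArg Prod.snd (e.symm.injective hi))
  refine ⟨op K 1 (m true), op K 1 (m false), ⟨star_op_mul_op _ _, star_op_mul_op _ _, ?_⟩,
    fun T => ⟨diag_comm_op _ _ _, diag_comm_op _ _ _⟩⟩
  refine ContinuousLinearMap.ext fun f => lp.ext (funext fun i => ?_)
  obtain ⟨⟨j, b⟩, rfl⟩ := e.symm.surjective i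
  show op K 1 (m true) (star (op K 1 (m true)) f) _ +
    op K 1 (m false) (star (op K 1 (m false)) f) _ = f _
  cases b
  · rw [k1, k2 _ _ _ _ (by simp), zero_add]
  · rw [k1, k2 _ _ _ _ (by simp), add_zero]

theorem CuntzRel.map {B C F : Type} [CStarAlgebra B] [CStarAlgebra C] [FunLike F B C]
    [AlgHomClass F ℂ B C] [StarHomClass F B C] (φ : F) {c₁ c₂ : B} (h : CuntzRel c₁ c₂) :
    CuntzRel (φ c₁) (φ c₂) := by
  refine ⟨?_, ?_, ?_⟩
  · rw [← map_star, ← map_mul, h.1, map_one]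
  · rw [← map_star, ← map_mul, h.2.1, map_one]
  · rw [← map_star, ← map_star, ← map_mul, ← map_mul, ← map_add, h.2.2, map_one]

/-- the standard basis -/
def std (J : Type) : HilbertBasis J ℂ (L2 J ℂ) := ⟨LinearIsometryEquiv.refl ℂ _⟩

theorem exists_rep (D : Type) [CStarAlgebra D] [Nontrivial D] : ∃ ι : Type, ∀ (J : Type)
    [Infinite J], Cardinal.mk ι ≤ Cardinal.mk J →
    ∃ i : D →⋆ₐ[ℂ] (L2 J ℂ →L[ℂ] L2 J ℂ), Function.Injective i := by
  obtain ⟨K, _, _, _, π, hπ⟩ := P083.H903.exists_faithful_rep D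
  obtain ⟨w, b, -⟩ := exists_hilbertBasis ℂ K
  refine ⟨w, fun J _ h => ?_⟩
  have : Nonempty w := by
    by_contra k
    rw [not_nonempty_iff] at k
    refine one_ne_zero (hπ (ContinuousLinearMap.ext fun ξ => b.repr.injective ?_) : (1 : D) = 0)
    exact lp.ext (funext fun i => k.elim i)
  obtain ⟨W⟩ := exists_iso b h
  exact ⟨(amp W).comp π, (amp_injective W).comp hπ⟩

theorem nontrivial_op (J : Type) [Nonempty J] : Nontrivial (L2 J ℂ →L[ℂ] L2 J ℂ) := by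
  classical
  obtain ⟨j⟩ := ‹Nonempty J›
  have : Nontrivial (L2 J ℂ) := ⟨⟨opSg j 1, 0, fun h => by
    have := congrArg (fun f : L2 J ℂ => f j) h
    simp only [opSg_self] at this
    exact one_ne_zero this⟩⟩
  infer_instance

theorem exists_big (D A : Type) [CStarAlgebra D] [Nontrivial D] [CStarAlgebra A] [Nontrivial A] :
    ∃ (B : Type) (_ : CStarAlgebra B) (_ : Nontrivial B) (i : D →⋆ₐ[ℂ] B) (_ : A →⋆ₐ[ℂ] B)
      (ρ : B →⋆ₐ[ℂ] B) (c₁ c₂ : B), Function.Injective i ∧ Function.Injective ρ ∧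
      CuntzRel c₁ c₂ ∧ (∀ T, Commute (ρ T) c₁ ∧ Commute (ρ T) c₂) ∧
      ∀ T, T ≠ 0 → ∃ x y, x * ρ T * y = 1 ∧ ‖x‖ * ‖y‖ * ‖T‖ ≤ 2 := by
  obtain ⟨ι, hD⟩ := exists_rep D
  obtain ⟨κ, hA⟩ := exists_rep A
  let J := ℕ ⊕ ι ⊕ κ
  obtain ⟨i, hi⟩ := hD J (Cardinal.mk_le_of_injective (f := fun x => Sum.inr (Sum.inl x))
    (Sum.inr_injective.comp Sum.inl_injective))
  obtain ⟨i', -⟩ := hA J (Cardinal.mk_le_of_injective (f := fun x => Sum.inr (Sum.inr x))
    (Sum.inr_injective.comp Sum.inr_injective))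
  obtain ⟨W⟩ := exists_iso (std J) le_rfl
  obtain ⟨c₁, c₂, hc, hc'⟩ := exists_pair (J := J) (K := L2 J ℂ)
  exact ⟨L2 J ℂ →L[ℂ] L2 J ℂ, inferInstance, nontrivial_op J, i, i', amp W, W.conjStarAlgEquiv c₁,
    W.conjStarAlgEquiv c₂, hi, amp_injective W, CuntzRel.map _ hc,
    fun T => ⟨(hc' T).1.map W.conjStarAlgEquiv, (hc' T).2.map W.conjStarAlgEquiv⟩, amp_full W⟩

/-- The operators on `ℓ²(ι)`, `ι` countable, act on every infinite-dimensional Hilbert space. -/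
theorem exists_hom (ι : Type) [Countable ι] [Nonempty ι] (h : ¬ FiniteDimensional ℂ H) :
    Nonempty ((L2 ι ℂ →L[ℂ] L2 ι ℂ) →⋆ₐ[ℂ] (H →L[ℂ] H)) := by
  obtain ⟨w, b, -⟩ := exists_hilbertBasis ℂ H
  have : Infinite w := by
    by_contra k
    rw [not_infinite_iff_finite] at k
    have := Fintype.ofFinite w
    exact h (Module.Finite.of_basis b.toOrthonormalBasis.toBasis)
  obtain ⟨W⟩ := exists_iso (J := w) (std ι) (Cardinal.mk_le_aleph0.trans (Cardinal.aleph0_le_mk w))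
  exact ⟨amp (W.trans b.repr.symm)⟩

end Vale.Agent.N083
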