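import Mathlib.Analysis.CStarAlgebra.Classes
import Mathlib.Topology.ContinuousMap.Bounded.Star
import Mathlib.Topology.ContinuousMap.Bounded.Normed
import Mathlib.Order.Filter.Ultrafilter.Defs

/-!
# P083: the Cuntz algebra and its norm ultrapowers
-/

open Filter Topology
open scoped BoundedContinuousFunction

namespace Vale.Agent.N083

variable (A B : Type) [CStarAlgebra A] [CStarAlgebra B]

/-- There is an injective unital *-homomorphism `A → B`. -/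
def Embeds : Prop := ∃ φ : A →⋆ₐ[ℂ] B, Function.Injective φ

/-- Every *-homomorphism `A → B`, unital or not, is zero. -/
def NoHom : Prop := ∀ φ : A →⋆ₙₐ[ℂ] B, φ = 0

variable {B} in
/-- `t₁`, `t₂` are isometries with `t₁ t₁* + t₂ t₂* = 1`. -/
def Cuntz (t₁ t₂ : B) : Prop :=
  star t₁ * t₁ = 1 ∧ star t₂ * t₂ = 1 ∧ t₁ * star t₁ + t₂ * star t₂ = 1

variable {A B} in
/-- Exactly one unital *-homomorphism sends `s₁` to `t₁` and `s₂` to `t₂`. -/
def Sends (s₁ s₂ : A) (t₁ t₂ : B) : Prop := ∃! φ : A →⋆ₐ[ℂ] B, φ s₁ = t₁ ∧ φ s₂ = t₂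

/-- `A` is the universal unital C*-algebra on two isometries with `s₁ s₁* + s₂ s₂* = 1`. -/
def IsO2 : Prop :=
  ∃ s₁ s₂ : A, Cuntz s₁ s₂ ∧
    ∀ (B : Type) [CStarAlgebra B] (t₁ t₂ : B), Cuntz t₁ t₂ → Sends s₁ s₂ t₁ t₂

/-- `B` is the quotient of `ℓ^∞(ℕ, A)` by the ideal of the sequences with `lim_ω ‖x n‖ = 0`. -/
def IsPower (ω : Ultrafilter ℕ) : Prop :=
  ∃ q : (ℕ →ᵇ A) →⋆ₐ[ℂ] B, Function.Surjective q ∧
    ∀ x, q x = 0 ↔ Tendsto (fun n => ‖x n‖) ω (𝓝 0)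

/-- `B` is the norm ultrapower of `O₂` along `ω`. -/
def IsO2Power (ω : Ultrafilter ℕ) : Prop :=
  ∃ (O : Type) (_ : CStarAlgebra O), IsO2 O ∧ IsPower O B ω

/-- Every *-homomorphism from `A` to a norm ultrapower of `O₂` is zero. -/
def OnlyZero : Prop :=
  ∀ (ω : Ultrafilter ℕ) (Q : Type) [CStarAlgebra Q], IsO2Power Q ω → NoHom A Q

/-- Every `b ≠ 0` divides the unit: `x b y = 1`. -/
def PurelyInf : Prop := ∀ b : A, b ≠ 0 → ∃ x y, x * b * y = 1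

/-- There are almost central pairs of Cuntz isometries. -/
def Central : Prop :=
  ∀ (F : Finset A) (ε : ℝ), 0 < ε → ∃ t₁ t₂ : A, Cuntz t₁ t₂ ∧
    ∀ a ∈ F, ‖t₁ * a - a * t₁‖ < ε ∧ ‖t₂ * a - a * t₂‖ < ε

end Vale.Agent.N083
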