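import Vale.Agent.N083.Amp

/-!
# P083: an inductive limit inside an ultrapower, and separable subalgebras
-/

open Filter Topology TopologicalSpace Set
open scoped ENNReal

noncomputable section

namespace Vale.Agent.N083

open Vale.Agent.P083 Vale.Agent.P083W

theorem sep_adjoin {Q : Type} [CStarAlgebra Q] {S : Set Q} (hS : S.Countable) :
    IsSeparable ((StarAlgebra.adjoin ℂ S : StarSubalgebra ℂ Q) : Set Q) := by
  have h1 : ((StarAlgebra.adjoin ℂ S : StarSubalgebra ℂ Q) : Set Q)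
      = (Submodule.span ℂ (Submonoid.closure (S ∪ star S) : Set Q) : Set Q) := by
    rw [← StarAlgebra.adjoin_eq_span]
    rfl
  rw [h1]
  refine IsSeparable.span (P083N.countable_closure_of_countable (hS.union ?_)).isSeparable
  rw [← Set.image_star]
  exact hS.image _

/-- A separable subalgebra that inherits pure infiniteness. -/
theorem exists_sep {Q : Type} [CStarAlgebra Q] (L : StarSubalgebra ℂ Q)
    (hL : ∀ a ∈ L, a ≠ 0 → ∃ x ∈ L, ∃ y ∈ L, x * a * y = 1 ∧ ‖x‖ * ‖y‖ * ‖a‖ ≤ 2)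
    {S : Set Q} (hS : S.Countable) (hSL : S ⊆ L) :
    ∃ M : StarSubalgebra ℂ Q, S ⊆ M ∧ M ≤ L ∧ IsSeparable (M : Set Q) ∧
      ∀ b ∈ closure (M : Set Q), b ≠ 0 → ∃ x ∈ M, ∃ y ∈ M, ‖1 - x * b * y‖ < 1 := by
  have h1 : ∀ a : Q, ∃ x y : Q, a ∈ L → x ∈ L ∧ y ∈ L ∧
      (a ≠ 0 → x * a * y = 1 ∧ ‖x‖ * ‖y‖ * ‖a‖ ≤ 2) := fun a => by
    by_cases k : a ∈ L ∧ a ≠ 0
    · obtain ⟨x, hx, y, hy, h⟩ := hL a k.1 k.2
      exact ⟨x, y, fun _ => ⟨hx, hy, fun _ => h⟩⟩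
    · exact ⟨0, 0, fun h => ⟨zero_mem _, zero_mem _, fun h' => (k ⟨h, h'⟩).elim⟩⟩
  choose X Y hXY using h1
  have h2 : ∀ T : {T : Set Q // T.Countable ∧ T ⊆ L}, ∃ U : {T : Set Q // T.Countable ∧ T ⊆ L},
      T.1 ⊆ U.1 ∧ ((StarAlgebra.adjoin ℂ T.1 : StarSubalgebra ℂ Q) : Set Q) ⊆ closure U.1 ∧
      ∀ a ∈ T.1, X a ∈ U.1 ∧ Y a ∈ U.1 := fun ⟨T, hT, hTL⟩ => by
    obtain ⟨V, h, hV, hd⟩ := (sep_adjoin hT).exists_countable_dense_subset
    refine ⟨⟨T ∪ V ∪ (X '' T ∪ Y '' T), (hT.union hV).union ((hT.image _).union (hT.image _)),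
      union_subset (union_subset hTL (h.trans (StarAlgebra.adjoin_le hTL))) (union_subset ?_ ?_)⟩,
      fun a ha => Or.inl (Or.inl ha), hd.trans (closure_mono fun a ha => Or.inl (Or.inr ha)),
      fun a ha => ⟨Or.inr (Or.inl ⟨a, ha, rfl⟩), Or.inr (Or.inr ⟨a, ha, rfl⟩)⟩⟩
    · rintro _ ⟨a, ha, rfl⟩
      exact (hXY a (hTL ha)).1
    · rintro _ ⟨a, ha, rfl⟩
      exact (hXY a (hTL ha)).2.1
  choose g g1 g2 g3 using h2
  let T : ℕ → {T : Set Q // T.Countable ∧ T ⊆ L} := fun n => g^[n] ⟨S, hS, hSL⟩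
  have hT : ∀ n, T (n + 1) = g (T n) := fun n => Function.iterate_succ_apply' _ _ _
  have mono : Monotone fun n => (T n).1 := monotone_nat_of_le_succ fun n => hT n ▸ g1 (T n)
  let U : Set Q := ⋃ n, (T n).1
  have hU : U ⊆ L := iUnion_subset fun n => (T n).2.2
  have dir : ∀ a ∈ StarAlgebra.adjoin ℂ U, ∃ n, a ∈ StarAlgebra.adjoin ℂ (T n).1 := by
    have up : ∀ {a m n}, m ≤ n → a ∈ StarAlgebra.adjoin ℂ (T m).1 →
        a ∈ StarAlgebra.adjoin ℂ (T n).1 := fun h k => StarAlgebra.adjoin_mono (mono h) k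
    intro a ha
    induction ha using StarAlgebra.adjoin_induction with
    | mem x hx =>
      obtain ⟨n, hn⟩ := mem_iUnion.1 hx
      exact ⟨n, StarAlgebra.subset_adjoin ℂ _ hn⟩
    | algebraMap r => exact ⟨0, algebraMap_mem _ r⟩
    | add x y _ _ hx hy =>
      obtain ⟨m, hm⟩ := hx
      obtain ⟨n, hn⟩ := hy
      exact ⟨max m n, add_mem (up (le_max_left _ _) hm) (up (le_max_right _ _) hn)⟩
    | mul x y _ _ hx hy =>
      obtain ⟨m, hm⟩ := hx
      obtain ⟨n, hn⟩ := hy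
      exact ⟨max m n, mul_mem (up (le_max_left _ _) hm) (up (le_max_right _ _) hn)⟩
    | star x _ hx =>
      obtain ⟨m, hm⟩ := hx
      exact ⟨m, star_mem hm⟩
  have dense : closure ((StarAlgebra.adjoin ℂ U : StarSubalgebra ℂ Q) : Set Q) ⊆ closure U := by
    refine closure_minimal (fun a ha => ?_) isClosed_closure
    obtain ⟨n, hn⟩ := dir a ha
    exact closure_mono (hT n ▸ subset_iUnion (fun n => (T n).1) (n + 1)) (g2 (T n) hn)
  refine ⟨StarAlgebra.adjoin ℂ U, (subset_iUnion (fun n => (T n).1) 0).trans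
    (StarAlgebra.subset_adjoin ℂ _), StarAlgebra.adjoin_le hU,
    sep_adjoin (countable_iUnion fun n => (T n).2.1), fun b hb b0 => ?_⟩
  have hb0 : 0 < ‖b‖ := norm_pos_iff.2 b0
  obtain ⟨a, ha, hab⟩ := Metric.mem_closure_iff.1 (dense hb) (‖b‖ / 4) (by positivity)
  rw [dist_eq_norm] at hab
  have h3 : 3 / 4 * ‖b‖ ≤ ‖a‖ := by
    have := norm_sub_norm_le b a
    linarith
  have a0 : 0 < ‖a‖ := lt_of_lt_of_le (by positivity) h3
  obtain ⟨n, hn⟩ := mem_iUnion.1 ha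
  obtain ⟨e1, e2⟩ := (hXY a (hU ha)).2.2 (norm_pos_iff.1 a0)
  have sub : (g (T n)).1 ⊆ StarAlgebra.adjoin ℂ U :=
    (hT n ▸ subset_iUnion (fun n => (T n).1) (n + 1)).trans (StarAlgebra.subset_adjoin ℂ _)
  refine ⟨X a, sub (g3 _ a hn).1, Y a, sub (g3 _ a hn).2, ?_⟩
  have e3 : 1 - X a * b * Y a = -(X a * (b - a) * Y a) := by
    rw [← e1]
    noncomm_ring
  have e4 : ‖X a * (b - a) * Y a‖ ≤ ‖X a‖ * ‖Y a‖ * ‖b - a‖ :=
    (norm_mul₃_le).trans_eq (by ring)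
  rw [e3, norm_neg]
  have p : 0 ≤ ‖X a‖ * ‖Y a‖ := by positivity
  have : ‖X a‖ * ‖Y a‖ * ‖b - a‖ ≤ ‖X a‖ * ‖Y a‖ * (‖a‖ / 3) :=
    mul_le_mul_of_nonneg_left (by linarith) p
  linarith

variable {B : Type} [CStarAlgebra B] [Nontrivial B]

/-- iterates of an endomorphism -/
def iter (ρ : B →⋆ₐ[ℂ] B) : ℕ → (B →⋆ₐ[ℂ] B)
  | 0 => StarAlgHom.id ℂ B
  | n + 1 => (iter ρ n).comp ρ

omit [Nontrivial B] in
theorem norm_iter {ρ : B →⋆ₐ[ℂ] B} (h : Function.Injective ρ) : ∀ n d, ‖iter ρ n d‖ = ‖d‖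
  | 0, _ => rfl
  | n + 1, d => (norm_iter h n (ρ d)).trans (NonUnitalStarAlgHom.norm_map ρ h d)

/-- a sequence of homomorphisms, as a homomorphism to the bounded sequences -/
def seq (R : ℕ → (B →⋆ₐ[ℂ] B)) (d : B) : Bdd B :=
  ⟨fun n => R n d, memℓp_infty ⟨‖d‖, by
    rintro _ ⟨n, rfl⟩
    exact NonUnitalStarAlgHom.norm_apply_le (R n) d⟩⟩

/-- a sequence of homomorphisms, as a homomorphism to the ultrapower -/
def toUlt (ω : Ultrafilter ℕ) (R : ℕ → (B →⋆ₐ[ℂ] B)) : B →⋆ₐ[ℂ] Ultrapower ω B where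
  toFun d := Ultrapower.mk ω (seq R d)
  map_one' := by
    rw [← Ultrapower.mk_one]
    exact congrArg _ (lp.ext (funext fun n => map_one (R n)))
  map_mul' x y := by
    rw [← Ultrapower.mk_mul]
    exact congrArg _ (lp.ext (funext fun n => map_mul (R n) x y))
  map_zero' := by
    rw [← Ultrapower.mk_zero]
    exact congrArg _ (lp.ext (funext fun n => map_zero (R n)))
  map_add' x y := by
    rw [← Ultrapower.mk_add]
    exact congrArg _ (lp.ext (funext fun n => map_add (R n) x y))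
  commutes' c := by
    rw [Algebra.algebraMap_eq_smul_one, Algebra.algebraMap_eq_smul_one, ← Ultrapower.mk_one,
      ← Ultrapower.mk_smul]
    exact congrArg _ (lp.ext (funext fun n => (map_smul (R n) c 1).trans (by rw [map_one]; rfl)))
  map_star' x := by
    rw [← Ultrapower.mk_star]
    exact congrArg _ (lp.ext (funext fun n => map_star (R n) x))

theorem exists_limit {ρ : B →⋆ₐ[ℂ] B} (h : Function.Injective ρ) :
    ∃ (Q : Type) (_ : CStarAlgebra Q) (ι : ℕ → (B →⋆ₐ[ℂ] Q)), (∀ k d, ‖ι k d‖ = ‖d‖) ∧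
      ∀ k d, ι (k + 1) (ρ d) = ι k d := by
  refine ⟨Ultrapower (hyperfilter ℕ) B, inferInstance,
    fun k => toUlt _ fun n => iter ρ (n - k), fun k d => Ultrapower.norm_mk_eq ?_,
    fun k d => Ultrapower.mk_eq_mk.2 ?_⟩
  · exact tendsto_const_nhds.congr fun n => (norm_iter h _ d).symm
  · refine tendsto_const_nhds.congr' ?_
    have : ∀ᶠ n in (hyperfilter ℕ : Filter ℕ), k + 1 ≤ n :=
      Nat.hyperfilter_le_atTop (eventually_ge_atTop _)
    filter_upwards [this] with n hn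
    show 0 = ‖iter ρ (n - (k + 1)) (ρ d) - iter ρ (n - k) d‖
    rw [show n - k = n - (k + 1) + 1 by omega]
    exact (norm_eq_zero.2 (sub_self _)).symm

/-- **The envelope.** -/
theorem exists_envelope (D A : Type) [CStarAlgebra D] [Nontrivial D] [SeparableSpace D]
    [CStarAlgebra A] [Nontrivial A] [SeparableSpace A] :
    ∃ (E : Type) (_ : CStarAlgebra E) (j : D →⋆ₐ[ℂ] E) (_ : A →⋆ₐ[ℂ] E),
      Function.Injective j ∧ SeparableSpace E ∧ (∀ b : E, b ≠ 0 → ∃ x y, x * b * y = 1) ∧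
      ∀ (F : Finset E) (ε : ℝ), 0 < ε → ∃ t₁ t₂ : E, CuntzRel t₁ t₂ ∧
        ∀ a ∈ F, ‖t₁ * a - a * t₁‖ < ε ∧ ‖t₂ * a - a * t₂‖ < ε := by
  obtain ⟨B, _, _, i, i', ρ, c₁, c₂, hi, hρ, hc, hcom, hfull⟩ := exists_big D A
  obtain ⟨Q, _, ι, hn, hι⟩ := exists_limit hρ
  have up : ∀ {k m : ℕ}, k ≤ m → ∀ d, ∃ d', ι m d' = ι k d := by
    intro k m h d
    induction h with
    | refl => exact ⟨d, rfl⟩
    | step _ ih =>
      obtain ⟨d', e⟩ := ih
      exact ⟨ρ d', (hι _ _).trans e⟩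
  have two : ∀ {a b : Q}, (∃ k d, ι k d = a) → (∃ k d, ι k d = b) →
      ∃ k d e, ι k d = a ∧ ι k e = b := by
    rintro _ _ ⟨k, d, rfl⟩ ⟨m, e, rfl⟩
    obtain ⟨d', hd⟩ := up (le_max_left k m) d
    obtain ⟨e', he⟩ := up (le_max_right k m) e
    exact ⟨_, d', e', hd, he⟩
  let L : StarSubalgebra ℂ Q :=
    { carrier := {a | ∃ k d, ι k d = a}
      mul_mem' := fun ha hb => by
        obtain ⟨k, d, e, rfl, rfl⟩ := two ha hb
        exact ⟨k, d * e, map_mul _ _ _⟩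
      add_mem' := fun ha hb => by
        obtain ⟨k, d, e, rfl, rfl⟩ := two ha hb
        exact ⟨k, d + e, map_add _ _ _⟩
      algebraMap_mem' := fun r => ⟨0, algebraMap ℂ B r, AlgHomClass.commutes _ r⟩
      star_mem' := by
        rintro _ ⟨k, d, rfl⟩
        exact ⟨k, star d, map_star _ _⟩ }
  obtain ⟨M, hS, hML, hsep, hM⟩ := exists_sep L (by
    rintro _ ⟨k, d, rfl⟩ h0
    obtain ⟨x, y, e1, e2⟩ := hfull d fun k => h0 (by rw [k, map_zero])
    refine ⟨ι (k + 1) x, ⟨_, _, rfl⟩, ι (k + 1) y, ⟨_, _, rfl⟩, ?_, by rwa [hn, hn, hn]⟩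
    rw [← hι k d, ← map_mul, ← map_mul, e1, map_one])
    (S := (range fun n => ι 0 (i (denseSeq D n))) ∪ (range fun n => ι 0 (i' (denseSeq A n))) ∪
      ((range fun k => ι k c₁) ∪ range fun k => ι k c₂))
    (((countable_range _).union (countable_range _)).union
      ((countable_range _).union (countable_range _))) (by
    rintro _ ((⟨n, rfl⟩ | ⟨n, rfl⟩) | ⟨n, rfl⟩ | ⟨n, rfl⟩) <;> exact ⟨_, _, rfl⟩)
  have hcl : IsClosed (M.topologicalClosure : Set Q) := StarSubalgebra.isClosed_topologicalClosure _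
  let hE : CStarAlgebra M.topologicalClosure :=
    StarSubalgebra.cstarAlgebra M.topologicalClosure (h_closed := hcl)
  have into : ∀ {C : Type} [CStarAlgebra C] [SeparableSpace C] (φ : C →⋆ₐ[ℂ] Q),
      (∀ n, φ (denseSeq C n) ∈ M) → ∀ c, φ c ∈ M.topologicalClosure := fun φ h c =>
    (denseRange_denseSeq _).induction_on c (hcl.preimage (AddMonoidHomClass.continuous_of_bound φ 1
      fun x => (NonUnitalStarAlgHom.norm_apply_le φ x).trans_eq (one_mul _).symm))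
      fun n => M.le_topologicalClosure (h n)
  have m1 : ∀ k, ι k c₁ ∈ M.topologicalClosure := fun k =>
    M.le_topologicalClosure (hS (Or.inr (Or.inl ⟨k, rfl⟩)))
  have m2 : ∀ k, ι k c₂ ∈ M.topologicalClosure := fun k =>
    M.le_topologicalClosure (hS (Or.inr (Or.inr ⟨k, rfl⟩)))
  refine ⟨M.topologicalClosure, hE,
    ((ι 0).comp i).codRestrict _ (into _ fun n => hS (Or.inl (Or.inl ⟨n, rfl⟩))),
    ((ι 0).comp i').codRestrict _ (into _ fun n => hS (Or.inl (Or.inr ⟨n, rfl⟩))),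
    fun x y h => hi ?_, hsep.closure.separableSpace, fun b b0 => ?_, fun F ε hε => ?_⟩
  · have k : ι 0 (i x) = ι 0 (i y) := congrArg Subtype.val h
    rw [← sub_eq_zero, ← norm_eq_zero, ← hn 0, map_sub, k, sub_self, norm_zero]
  · obtain ⟨x, hx, y, hy, h⟩ := hM b b.2 fun k => b0 (Subtype.ext k)
    let x' : M.topologicalClosure := ⟨x, M.le_topologicalClosure hx⟩
    let y' : M.topologicalClosure := ⟨y, M.le_topologicalClosure hy⟩
    obtain ⟨u, hu⟩ := isUnit_one_sub_of_norm_lt_one (x := 1 - x' * b * y') h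
    rw [sub_sub_cancel] at hu
    exact ⟨↑u⁻¹ * x', y', by rw [mul_assoc, mul_assoc, ← mul_assoc x', ← hu, u.inv_mul]⟩
  · have h1 : ∀ a : M.topologicalClosure, ∃ k d, ‖(a : Q) - ι k d‖ < ε / 2 := fun a => by
      obtain ⟨a', ha, h⟩ := Metric.mem_closure_iff.1 a.2 (ε / 2) (half_pos hε)
      obtain ⟨k, d, rfl⟩ := hML ha
      exact ⟨k, d, by rwa [← dist_eq_norm]⟩
    choose k d hd using h1
    have key : ∀ c : B, star c * c = 1 → (∀ T, Commute (ρ T) c) → ∀ a ∈ F,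
        ‖ι (F.sup k + 1) c * (a : Q) - a * ι (F.sup k + 1) c‖ < ε := by
      intro c h1 h2 a ha
      obtain ⟨d', e⟩ := up (Finset.le_sup (f := k) ha) (d a)
      have n1 : ‖ι (F.sup k + 1) c‖ = 1 := by
        have := CStarRing.norm_star_mul_self (x := c)
        rw [h1, norm_one] at this
        rw [hn]
        nlinarith [norm_nonneg c]
      have cm : ι (k a) (d a) * ι (F.sup k + 1) c = ι (F.sup k + 1) c * ι (k a) (d a) := by
        rw [← e, ← hι _ d', ← map_mul, ← map_mul, (h2 d').eq]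
      have e2 : ι (F.sup k + 1) c * (a : Q) - a * ι (F.sup k + 1) c =
          ι (F.sup k + 1) c * ((a : Q) - ι (k a) (d a)) -
            ((a : Q) - ι (k a) (d a)) * ι (F.sup k + 1) c := by
        rw [mul_sub, sub_mul, cm]
        abel
      have e3 := norm_mul_le (ι (F.sup k + 1) c) ((a : Q) - ι (k a) (d a))
      have e4 := norm_mul_le ((a : Q) - ι (k a) (d a)) (ι (F.sup k + 1) c)
      rw [n1] at e3 e4
      rw [e2]
      linarith [norm_sub_le (ι (F.sup k + 1) c * ((a : Q) - ι (k a) (d a)))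
        (((a : Q) - ι (k a) (d a)) * ι (F.sup k + 1) c), hd a]
    obtain ⟨r1, r2, r3⟩ := CuntzRel.map (ι (F.sup k + 1)) hc
    exact ⟨⟨_, m1 (F.sup k + 1)⟩, ⟨_, m2 (F.sup k + 1)⟩,
      ⟨Subtype.ext r1, Subtype.ext r2, Subtype.ext r3⟩, fun a ha =>
        ⟨key c₁ hc.1 (fun T => (hcom T).1) a ha, key c₂ hc.2.1 (fun T => (hcom T).2) a ha⟩⟩

end Vale.Agent.N083
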