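import Vale.Agent.N083.Limit
import Vale.Agent.N083.Defs

/-!
# P083: simple purely infinite counterexamples
-/

open Filter Topology TopologicalSpace
open scoped BoundedContinuousFunction

namespace Vale.Agent.N083

open Vale.Agent.P083 Vale.Agent.P083N Vale.Agent.P083W Vale.Agent.P083.H903

theorem exists_prod {O : Type} [CStarAlgebra O] {ω : Ultrafilter ℕ} {Q : Type} [CStarAlgebra Q]
    {q : (ℕ →ᵇ O) →⋆ₐ[ℂ] Q} (h : IsUltrapower O ω Q q) :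
    ∃ g : (ℕ → O) → Q, IsUltraprod (fun _ => O) ω Q g := by
  classical
  have hb : ∀ x : ℕ → O, IsBddSeq (B := fun _ => O) x → ∃ y : ℕ →ᵇ O, ⇑y = x := fun x ⟨C, hC⟩ =>
    ⟨BoundedContinuousFunction.ofNormedAddCommGroupDiscrete x C hC, rfl⟩
  let g : (ℕ → O) → Q := fun x => if k : ∃ y : ℕ →ᵇ O, ⇑y = x then q k.choose else 0
  have hg : ∀ y : ℕ →ᵇ O, g y = q y := fun y => by
    have k : ∃ z : ℕ →ᵇ O, ⇑z = ⇑y := ⟨y, rfl⟩
    exact (dif_pos k).trans (congrArg q (DFunLike.coe_injective k.choose_spec))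
  refine ⟨g, (hg 1).trans (map_one q), fun x y hx hy => ?_, fun x y hx hy => ?_,
    fun c x hx => ?_, fun x hx => ?_, fun z => ?_, fun x hx => ?_⟩
  · obtain ⟨x, rfl⟩ := hb x hx
    obtain ⟨y, rfl⟩ := hb y hy
    rw [hg, hg, ← map_add]
    exact hg (x + y)
  · obtain ⟨x, rfl⟩ := hb x hx
    obtain ⟨y, rfl⟩ := hb y hy
    rw [hg, hg, ← map_mul]
    exact hg (x * y)
  · obtain ⟨x, rfl⟩ := hb x hx
    rw [hg, ← map_smul]
    exact hg (c • x)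
  · obtain ⟨x, rfl⟩ := hb x hx
    rw [hg, ← map_star]
    exact hg (star x)
  · obtain ⟨y, rfl⟩ := h.surj z
    exact ⟨y, ⟨‖y‖, y.norm_coe_le_norm⟩, hg y⟩
  · obtain ⟨x, rfl⟩ := hb x hx
    rw [hg, h.ker]

theorem onlyZero_of_rels {A : Type} [hA : CStarAlgebra A] {a : Gen → A} {t : ZMod 101 → A} {s : A}
    (h : Rels 101 ZMod.toCircle a t s) : OnlyZero A := by
  have h101 : Fact (Nat.Prime 101) := ⟨by norm_num⟩
  rintro ω Q _ ⟨B, _, ⟨s₁, s₂, hB⟩, q, hq⟩ φ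
  obtain ⟨_, hB⟩ := of_isO2 hB
  obtain ⟨g, hg⟩ := exists_prod ⟨hq.1, hq.2⟩
  obtain ⟨K, i1, i2, i3, i4, π, hπ, hS⟩ := exists_sliceRep B (Or.inr (Or.inr ⟨s₁, s₂, hB⟩))
  obtain ⟨ψ, l1, l2, l3, l4, l5, l6⟩ := exists_lift' hg φ
  refine l6 ?_
  by_contra hcon
  obtain ⟨n, e1, e2, e3, e4⟩ := stStage 101 h101 (by norm_num) ZMod.toCircle A hA a t s h
    (fun _ => B) inferInstance (fun _ => K) (fun _ => i1) (fun _ => i2) (fun _ => i3) (fun _ => π)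
    (fun _ => hπ) ω ψ l1 l2 l3 l4 l5 hcon
  exact no_stage (by norm_num) (by norm_num) ZMod.injective_toCircle π hS
    (fun g => ψ n (a g)) (ψ n 1) e1 e2 e3 e4

theorem OnlyZero.of_hom {A E : Type} [CStarAlgebra A] [CStarAlgebra E] (h : OnlyZero A)
    (j : A →⋆ₐ[ℂ] E) : OnlyZero E := fun ω Q _ hQ φ => by
  have k : φ (j 1) = 0 :=
    congrArg (fun f : A →⋆ₙₐ[ℂ] Q => f 1) (h ω Q hQ (φ.comp j.toNonUnitalStarAlgHom))
  rw [map_one] at k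
  ext a
  rw [← one_mul a, map_mul, k, zero_mul]
  rfl

theorem exists_power (ω : Ultrafilter ℕ) :
    ∃ (Q : Type) (_ : CStarAlgebra Q), Nontrivial Q ∧ IsO2Power Q ω := by
  obtain ⟨O, _, s₁, s₂, h⟩ := exists_O2
  have := (of_isO2 h).1
  obtain ⟨Q, _, q, hq⟩ := exists_isUltrapower O ω
  refine ⟨Q, inferInstance, ⟨1, 0, fun k => ?_⟩, O, inferInstance, ⟨s₁, s₂, h⟩, q, hq.1, hq.2⟩
  have h1 : Tendsto (fun _ : ℕ => ‖(1 : O)‖) ω (𝓝 0) := (hq.ker 1).1 ((map_one q).trans k)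
  exact one_ne_zero (norm_eq_zero.1 (tendsto_nhds_unique tendsto_const_nhds h1))

theorem onlyZero_op : OnlyZero (P083N.L2 (Ix 101 × ℕ) ℂ →L[ℂ] P083N.L2 (Ix 101 × ℕ) ℂ) := by
  have h101 : Fact (Nat.Prime 101) := ⟨by norm_num⟩
  obtain ⟨a, t, s, h⟩ := exists_rels_op 101 ZMod.toCircle
  exact onlyZero_of_rels h

theorem exists_onlyZero : ∃ (A : Type) (_ : CStarAlgebra A), Nontrivial A ∧ SeparableSpace A ∧
    OnlyZero A := by
  have h101 : Fact (Nat.Prime 101) := ⟨by norm_num⟩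
  obtain ⟨a, t, s, h⟩ := exists_rels_op 101 ZMod.toCircle
  have : Nonempty (Ix 101 × ℕ) := ⟨(⟨0, 0⟩, 0)⟩
  have := nontrivial_op (Ix 101 × ℕ)
  obtain ⟨A, hA, hA1, hA2, a', t', s', h'⟩ := exists_separable 101 ZMod.toCircle h
  exact ⟨A, hA, hA1, hA2, onlyZero_of_rels h'⟩

theorem not_all {ω : Ultrafilter ℕ} {Q : Type} [CStarAlgebra Q] (h : IsO2Power Q ω) :
    ¬ ∀ (A : Type) [CStarAlgebra A] [Nontrivial A], SeparableSpace A → Embeds A Q :=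
  fun hall => by
  obtain ⟨A, _, _, hA, h0⟩ := exists_onlyZero
  obtain ⟨φ, hφ⟩ := hall A hA
  have k : ∀ a, φ a = 0 := fun a =>
    congrArg (fun f : A →⋆ₙₐ[ℂ] Q => f a) (h0 ω Q h φ.toNonUnitalStarAlgHom)
  exact one_ne_zero (hφ ((k 1).trans (k 0).symm))

theorem envelope (D : Type) [CStarAlgebra D] [Nontrivial D] (hD : SeparableSpace D) :
    ∃ (E : Type) (_ : CStarAlgebra E), Embeds D E ∧ SeparableSpace E ∧ PurelyInf E ∧ Central E ∧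
      OnlyZero E := by
  obtain ⟨A, _, _, hA, h0⟩ := exists_onlyZero
  obtain ⟨E, _, j, j', h1, h2, h3, h4⟩ := exists_envelope D A
  exact ⟨E, inferInstance, ⟨j, h1⟩, h2, h3, h4, h0.of_hom j'⟩

theorem onlyZero_BH (H : Type) [NormedAddCommGroup H] [InnerProductSpace ℂ H] [CompleteSpace H]
    (h : ¬ FiniteDimensional ℂ H) : OnlyZero (H →L[ℂ] H) := by
  have : Nonempty (Ix 101 × ℕ) := ⟨(⟨0, 0⟩, 0)⟩
  obtain ⟨j⟩ := exists_hom (Ix 101 × ℕ) h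
  exact onlyZero_op.of_hom j

end Vale.Agent.N083
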