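import Vale.Agent.N083.Main

open Filter TopologicalSpace Vale.Agent.N083

/-- (1) Every separable unital C*-algebra is contained in a counterexample to the embedding problem
of Kirchberg which is simple, purely infinite and has approximately central pairs of Cuntz
isometries. (2) `B(H)` has no nonzero homomorphism to the ultrapowers. -/
theorem Vale.Agent.N083.oldPurelyInfinite :
    (∀ (D : Type) [CStarAlgebra D] [Nontrivial D], SeparableSpace D →
      ∃ (E : Type) (_ : CStarAlgebra E), Embeds D E ∧ SeparableSpace E ∧ PurelyInf E ∧
        Central E ∧ OnlyZero E) ∧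
    ∀ (H : Type) [NormedAddCommGroup H] [InnerProductSpace ℂ H] [CompleteSpace H],
      ¬ FiniteDimensional ℂ H → OnlyZero (H →L[ℂ] H) :=
  ⟨envelope, onlyZero_BH⟩
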